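import Crest.Agent.X212.Lad50.PL
import Crest.Agent.R202.Miranda

/-!
# X212 / T layer, CORE1, part 1: a PL arc across the strip (helper42)

`exists_arc`: if `p : ℝ × ℝ → ℝ` is continuous, equal to the second coordinate on the two sides of
the strip `|y.1| ≤ 1` and at bounded distance from it, then a simple PL arc in `{|p| < 1/4}` joins
`(-1,0)` to `(1,0)` through the open strip (Poincaré–Miranda).
-/

set_option autoImplicit false

open Set Metric Topology

namespace Crest.Agent.X212.Cor42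

open Crest.Agent.R096.Ce_537 Crest.Agent.X212.Lad50

section Rch

variable {E : Type*} [NormedAddCommGroup E] [NormedSpace ℝ E]

/-- `y` is joined to `a` by a simple PL arc whose interior lies in `O` -/
def Rch (a : E) (O : Set E) (y : E) : Prop :=
  ∃ L > (0 : ℝ), ∃ γ : ℝ → E, PLOn γ (Icc 0 L) ∧ InjOn γ (Icc 0 L) ∧ γ 0 = a ∧ γ L = y ∧
    ∀ t ∈ Ioo 0 L, γ t ∈ O

lemma line_inj {r y : E} (h : r ≠ y) {s t : ℝ} (e : r + s • (y - r) = r + t • (y - r)) : s = t := by
  have h1 : (s - t) • (y - r) = 0 := by rw [sub_smul, add_left_cancel e, sub_self]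
  rcases smul_eq_zero.1 h1 with h2 | h2
  · linarith
  · exact absurd (sub_eq_zero.1 h2).symm h

lemma line_mem (r y : E) {s : ℝ} (h0 : 0 ≤ s) (h1 : s ≤ 1) : r + s • (y - r) ∈ segment ℝ r y := by
  rw [segment_eq_image']
  exact ⟨s, ⟨h0, h1⟩, rfl⟩

lemma rch_seg {a y : E} {O : Set E} (h : a ≠ y)
    (hO : ∀ z ∈ segment ℝ a y, z ≠ a → z ≠ y → z ∈ O) : Rch a O y := by
  refine ⟨1, one_pos, fun t => a + t • (y - a), pl_add (plOn_const _ _)
    (pl_smul_const (plOn_id _) _), fun s _ t _ e => line_inj h e, by simp, by simp, fun t ht => ?_⟩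
  refine hO _ (line_mem a y ht.1.le ht.2.le) (fun e => ?_) (fun e => ?_)
  · have := line_inj (s := t) (t := 0) h (by simpa using e)
    exact ht.1.ne' this
  · have := line_inj (s := t) (t := 1) h (by simpa using e)
    exact ht.2.ne this

lemma Rch.step {a y₁ y : E} {O : Set E} (h : Rch a O y₁) (ha : a ∉ segment ℝ y₁ y)
    (hO : ∀ z ∈ segment ℝ y₁ y, z ≠ y → z ∈ O) : Rch a O y := by
  classical
  obtain ⟨L, hL, γ, hp, hi, h0, h1, hm⟩ := h
  have hsc : IsClosed (segment ℝ y₁ y) := by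
    rw [segment_eq_image']
    exact (isCompact_Icc.image (by fun_prop)).isClosed
  have hT : IsCompact (Icc 0 L ∩ γ ⁻¹' segment ℝ y₁ y) :=
    isCompact_Icc.of_isClosed_subset (hp.1.preimage_isClosed_of_isClosed isClosed_Icc hsc)
      inter_subset_left
  obtain ⟨s, ⟨hs, hs'⟩, hmin⟩ := hT.exists_isLeast
    ⟨L, ⟨⟨hL.le, le_rfl⟩, by rw [mem_preimage, h1]; exact left_mem_segment _ _ _⟩⟩
  have hs0 : 0 < s := hs.1.lt_of_ne fun e => ha (by rw [← h0, e]; exact hs')
  have hsub : Icc 0 s ⊆ Icc 0 L := Icc_subset_Icc le_rfl hs.2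
  by_cases hy : γ s = y
  · exact ⟨s, hs0, γ, hp.mono hsub, hi.mono hsub, h0, hy,
      fun t ht => hm t ⟨ht.1, ht.2.trans_le hs.2⟩⟩
  have hseg : segment ℝ (γ s) y ⊆ segment ℝ y₁ y :=
    (convex_segment _ _).segment_subset hs' (right_mem_segment _ _ _)
  let g : ℝ → E := fun t => if t ≤ s then γ t else γ s + (t - s) • (y - γ s)
  have g1 : ∀ t, t ≤ s → g t = γ t := fun t ht => if_pos ht
  have g2 : ∀ t, s ≤ t → g t = γ s + (t - s) • (y - γ s) := fun t ht => by
    rcases ht.eq_or_lt with rfl | ht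
    · simp [g]
    · exact if_neg (not_le.2 ht)
  have hlt : ∀ t ∈ Icc 0 (s + 1), ∀ t' ∈ Icc 0 (s + 1), t < s → s ≤ t' → g t ≠ g t' := by
    intro t ht t' ht' h2 h3 e
    rw [g1 t h2.le, g2 t' h3] at e
    have : s ≤ t := hmin ⟨⟨ht.1, h2.le.trans hs.2⟩, by
      rw [mem_preimage, e]; exact hseg (line_mem _ _ (by linarith) (by linarith [ht'.2]))⟩
    linarith
  refine ⟨s + 1, by linarith, g, ?_, ?_, by rw [g1 0 hs0.le, h0], by rw [g2 _ (by linarith)]; simp,
    fun t ht => ?_⟩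
  · have p1 : PLOn g (Icc 0 s) := (hp.mono hsub).congr fun t ht => g1 t ht.2
    have p2 : PLOn g (Icc s (s + 1)) := (pl_add (plOn_const (γ s) _) (pl_smul_const
      (pl_sub (plOn_id _) (plOn_const s _)) (y - γ s))).congr fun t ht => g2 t ht.1
    rw [← Icc_union_Icc_eq_Icc hs0.le (show s ≤ s + 1 by linarith)]
    exact p1.union p2 isClosed_Icc isClosed_Icc
  · intro t ht t' ht' e
    rcases lt_or_ge t s with c | c <;> rcases lt_or_ge t' s with c' | c'
    · rw [g1 t c.le, g1 t' c'.le] at e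
      exact hi ⟨ht.1, c.le.trans hs.2⟩ ⟨ht'.1, c'.le.trans hs.2⟩ e
    · exact absurd e (hlt t ht t' ht' c c')
    · exact absurd e.symm (hlt t' ht' t ht c' c)
    · rw [g2 t c, g2 t' c'] at e
      linarith [line_inj hy e]
  · rcases lt_or_ge t s with c | c
    · rw [g1 t c.le]; exact hm t ⟨ht.1, c.trans_le hs.2⟩
    · rw [g2 t c]
      refine hO _ (hseg (line_mem _ _ (by linarith) (by linarith [ht.2]))) fun e => ?_
      have := line_inj (s := t - s) (t := 1) hy (by simpa using e)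
      linarith [ht.2]

lemma rch_ball {a : E} {O : Set E} (hO : IsOpen O) (ha : a ∉ O) {y : E} (hy : y ∈ O) :
    ∀ᶠ z in 𝓝 y, z ∈ O ∧ (Rch a O z ↔ Rch a O y) := by
  obtain ⟨r, hr, hb⟩ := Metric.isOpen_iff.1 hO y hy
  have key : ∀ z ∈ ball y r, ∀ z' ∈ ball y r, Rch a O z → Rch a O z' := fun z hz z' hz' h =>
    have hs : segment ℝ z z' ⊆ O := ((convex_ball y r).segment_subset hz hz').trans hb
    h.step (fun h' => ha (hs h')) fun w hw _ => hs hw
  filter_upwards [ball_mem_nhds y hr] with z hz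
  exact ⟨hb hz, key z hz y (mem_ball_self hr), key y (mem_ball_self hr) z hz⟩

end Rch

/-- the crossing arc, not yet normalised -/
theorem exists_rch {p : ℝ × ℝ → ℝ} (hp : Continuous p) (hb : ∀ y : ℝ × ℝ, |y.1| = 1 → p y = y.2)
    {C : ℝ} (hC : ∀ y : ℝ × ℝ, |y.1| ≤ 1 → |p y - y.2| ≤ C) :
    Rch ((-1 : ℝ), (0 : ℝ)) {y : ℝ × ℝ | |y.1| < 1 ∧ |p y| < 1 / 4} (1, 0) := by
  by_contra hn
  set O : Set (ℝ × ℝ) := {y | |y.1| < 1 ∧ |p y| < 1 / 4} with hOd
  set a : ℝ × ℝ := (-1, 0) with had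
  have hC0 : 0 ≤ C := (abs_nonneg _).trans (hC 0 (by simp))
  have hO : IsOpen O := IsOpen.inter (s := {y : ℝ × ℝ | |y.1| < 1})
    (t := {y : ℝ × ℝ | |p y| < 1 / 4}) (isOpen_lt (by fun_prop) continuous_const)
    (isOpen_lt (by fun_prop) continuous_const)
  have ha : a ∉ O := fun h => by simpa [had] using h.1
  -- uniform continuity near the two sides
  obtain ⟨η, hη, hη1, hu⟩ : ∃ η > (0 : ℝ), η < 1 ∧ ∀ y : ℝ × ℝ, 1 - η ≤ |y.1| → |y.1| ≤ 1 →
      |y.2| ≤ C + 1 → |p y - y.2| < 1 / 16 := by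
    have hK : IsCompact (Icc (-1 : ℝ) 1 ×ˢ Icc (-(C + 1)) (C + 1)) :=
      isCompact_Icc.prod isCompact_Icc
    obtain ⟨δ, hδ, h⟩ := Metric.uniformContinuousOn_iff.1
      (hK.uniformContinuousOn_of_continuous hp.continuousOn) (1 / 16) (by norm_num)
    refine ⟨min (δ / 2) (1 / 2), by positivity, (min_le_right _ _).trans_lt (by norm_num),
      fun y h1 h2 h3 => ?_⟩
    have m1 := min_le_left (δ / 2) (1 / 2)
    have key : ∀ e : ℝ, |e| = 1 → |y.1 - e| < δ → |p y - y.2| < 1 / 16 := fun e he hd => by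
      have := h y ⟨abs_le.1 h2, abs_le.1 h3⟩ (e, y.2) ⟨abs_le.1 he.le, abs_le.1 h3⟩
        (by rw [Prod.dist_eq]; simpa [Real.dist_eq, hδ] using hd)
      rwa [hb (e, y.2) he, Real.dist_eq] at this
    rcases le_total 0 y.1 with c | c
    · rw [abs_of_nonneg c] at h1 h2
      exact key 1 abs_one (by rw [abs_lt]; constructor <;> linarith)
    · rw [abs_of_nonpos c] at h1 h2
      exact key (-1) (by simp) (by rw [abs_lt]; constructor <;> linarith)
  have hin : ∀ z : ℝ × ℝ, 1 - η ≤ |z.1| → |z.1| < 1 → |z.2| ≤ 1 / 8 → z ∈ O := fun z h1 h2 h3 => by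
    have := abs_lt.1 (hu z h1 h2.le (by linarith))
    rw [abs_le] at h3
    exact ⟨h2, abs_lt.2 ⟨by linarith, by linarith⟩⟩
  set X : Set (ℝ × ℝ) := {y | |y.1| ≤ 1 - η ∧ |y.2| ≤ C + 1} with hX
  set Z : Set (ℝ × ℝ) := X ∩ {y | |p y| ≤ 1 / 16} with hZ
  have hXc : IsClosed X := IsClosed.inter (s₁ := {y : ℝ × ℝ | |y.1| ≤ 1 - η})
    (s₂ := {y : ℝ × ℝ | |y.2| ≤ C + 1}) (isClosed_le (by fun_prop) continuous_const)
    (isClosed_le (by fun_prop) continuous_const)
  have hZc : IsClosed Z := hXc.inter (isClosed_le (by fun_prop) continuous_const)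
  have hZO : Z ⊆ O := fun y hy => ⟨by linarith [hy.1.1], by linarith [show |p y| ≤ 1 / 16 from hy.2]⟩
  have hsm : ∀ y ∈ Z, |y.1| = 1 - η → |y.2| ≤ 1 / 8 := fun y hy e => by
    have h1 := abs_lt.1 (hu y e.ge (by linarith) hy.1.2)
    have h2 := abs_le.1 (show |p y| ≤ 1 / 16 from hy.2)
    exact abs_le.2 ⟨by linarith, by linarith⟩
  have o1 : IsOpen {y | y ∈ O ∧ Rch a O y} := isOpen_iff_mem_nhds.2 fun y hy => by
    filter_upwards [rch_ball hO ha hy.1] with z hz using ⟨hz.1, hz.2.2 hy.2⟩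
  have o2 : IsOpen {y | y ∈ O ∧ ¬Rch a O y} := isOpen_iff_mem_nhds.2 fun y hy => by
    filter_upwards [rch_ball hO ha hy.1] with z hz using ⟨hz.1, fun h => hy.2 (hz.2.1 h)⟩
  have cA : IsClosed ((Z \ {y | y ∈ O ∧ ¬Rch a O y}) ∪ {y | y.1 = -(1 - η)}) :=
    (hZc.sdiff o2).union (isClosed_eq continuous_fst continuous_const)
  have cB : IsClosed ((Z \ {y | y ∈ O ∧ Rch a O y}) ∪ {y | y.1 = 1 - η}) :=
    (hZc.sdiff o1).union (isClosed_eq continuous_fst continuous_const)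
  have hd : Disjoint ((Z \ {y | y ∈ O ∧ ¬Rch a O y}) ∪ {y | y.1 = -(1 - η)})
      ((Z \ {y | y ∈ O ∧ Rch a O y}) ∪ {y | y.1 = 1 - η}) := by
    rw [Set.disjoint_left]
    rintro y (⟨h1, h2⟩ | h1) (⟨h3, h4⟩ | h3)
    · exact h2 ⟨hZO h1, fun h => h4 ⟨hZO h1, h⟩⟩
    · have h3' : y.1 = 1 - η := h3
      have r : Rch a O y := by_contra fun h => h2 ⟨hZO h1, h⟩
      have h5 := abs_le.1 (hsm y h1 (by rw [h3', abs_of_pos (by linarith)]))
      have hs : ∀ z ∈ segment ℝ y ((1 : ℝ), (0 : ℝ)), 1 - η ≤ z.1 ∧ (z ≠ (1, 0) → z.1 < 1) ∧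
          |z.2| ≤ 1 / 8 := by
        rintro z ⟨s, t, hs, ht, hst, rfl⟩
        have e : t = 1 - s := by linarith
        subst e
        simp only [Prod.fst_add, Prod.smul_fst, smul_eq_mul, Prod.snd_add, Prod.smul_snd, h3']
        refine ⟨by nlinarith, fun hne => ?_, abs_le.2 ⟨by nlinarith, by nlinarith⟩⟩
        have : s ≠ 0 := fun e => hne (by simp [e])
        have : 0 < s := hs.lt_of_ne this.symm
        nlinarith
      refine hn (r.step (fun h => ?_) fun z hz hne => ?_)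
      · have := (hs a h).1
        simp only [had] at this; linarith
      · obtain ⟨k1, k2, k3⟩ := hs z hz
        have : |z.1| = z.1 := abs_of_pos (by linarith)
        exact hin z (by rw [this]; exact k1) (by rw [this]; exact k2 hne) k3
    · have h1' : y.1 = -(1 - η) := h1
      have h5 := abs_le.1 (hsm y h3 (by rw [h1', abs_neg, abs_of_pos (by linarith)]))
      refine h4 ⟨hZO h3, rch_seg (fun e => ?_) ?_⟩
      · rw [← e] at h1'; simp only [had] at h1'; linarith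
      · rintro z ⟨s, t, hs, ht, hst, rfl⟩ hne -
        have e : s = 1 - t := by linarith
        subst e
        have : t ≠ 0 := fun e => hne (by simp [e])
        have : 0 < t := ht.lt_of_ne this.symm
        have e1 : ((1 - t) • a + t • y).1 = -(1 - t * η) := by simp [had, h1']; ring
        have e2 : ((1 - t) • a + t • y).2 = t * y.2 := by simp [had]
        have e3 : |((1 - t) • a + t • y).1| = 1 - t * η := by
          rw [e1, abs_neg, abs_of_pos (by nlinarith)]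
        refine hin _ (by rw [e3]; nlinarith) (by rw [e3]; nlinarith) ?_
        rw [e2]; exact abs_le.2 ⟨by nlinarith, by nlinarith⟩
    · have h1' : y.1 = -(1 - η) := h1
      have h3' : y.1 = 1 - η := h3
      linarith
  obtain ⟨f, f0, f1, -⟩ := exists_continuous_zero_one_of_isClosed cA cB hd
  let m : (Fin 2 → ℝ) → ℝ × ℝ := fun x => ((1 - η) * x 0, (C + 1) * x 1)
  have hm : Continuous m := by fun_prop
  have hmX : ∀ x ∈ Set.pi univ fun _ : Fin 2 => Icc (-1 : ℝ) 1, m x ∈ X := fun x hx => by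
    have h0 := hx 0 (mem_univ _)
    have h1 := hx 1 (mem_univ _)
    exact ⟨abs_le.2 ⟨by simp only [m]; nlinarith [h0.1], by simp only [m]; nlinarith [h0.2]⟩,
      abs_le.2 ⟨by simp only [m]; nlinarith [h1.1], by simp only [m]; nlinarith [h1.2]⟩⟩
  obtain ⟨x, hx, hz⟩ := R202.poincare_miranda (ι := Fin 2)
    (fun x => ![2 * f (m x) - 1, p (m x)]) (Continuous.continuousOn (by
      refine continuous_pi fun i => ?_
      fin_cases i
      · exact (continuous_const.mul (f.continuous.comp hm)).sub continuous_const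
      · exact hp.comp hm)) (fun x hx i hi => by
      fin_cases i
      · have : f (m x) = 1 := f1 (Or.inr (by simp only [Fin.zero_eta] at hi; simp [m, hi]))
        simp [this]
      · have h1 := abs_le.1 (hC (m x) (by linarith [(hmX x hx).1]))
        simp only [Fin.mk_one] at hi
        have : (m x).2 = C + 1 := by simp [m, hi]
        simp only [Fin.mk_one, Matrix.cons_val_one, Matrix.cons_val_zero]
        linarith) (fun x hx i hi => by
      fin_cases i
      · have : f (m x) = 0 := f0 (Or.inr (by simp only [Fin.zero_eta] at hi; simp [m, hi]))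
        simp [this]
      · have h1 := abs_le.1 (hC (m x) (by linarith [(hmX x hx).1]))
        simp only [Fin.mk_one] at hi
        have : (m x).2 = -(C + 1) := by simp [m, hi]
        simp only [Fin.mk_one, Matrix.cons_val_one, Matrix.cons_val_zero]
        linarith)
  have z0 : 2 * f (m x) - 1 = 0 := by simpa using hz 0
  have z1 : p (m x) = 0 := by simpa using hz 1
  have hmZ : m x ∈ Z := ⟨hmX x hx, by simp [z1]⟩
  by_cases r : Rch a O (m x)
  · have : f (m x) = 0 := f0 (Or.inl ⟨hmZ, fun h => h.2 r⟩)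
    linarith
  · have : f (m x) = 1 := f1 (Or.inl ⟨hmZ, fun h => r h.2⟩)
    linarith

/-- **the crossing arc** -/
theorem exists_arc {p : ℝ × ℝ → ℝ} (hp : Continuous p) (hb : ∀ y : ℝ × ℝ, |y.1| = 1 → p y = y.2)
    {C : ℝ} (hC : ∀ y : ℝ × ℝ, |y.1| ≤ 1 → |p y - y.2| ≤ C) :
    ∃ γ : ℝ → ℝ × ℝ, PLOn γ (Icc (-1) 1) ∧ InjOn γ (Icc (-1) 1) ∧ γ (-1) = (-1, 0) ∧
      γ 1 = (1, 0) ∧ (∀ t ∈ Ioo (-1 : ℝ) 1, |(γ t).1| < 1) ∧
      ∀ t ∈ Icc (-1 : ℝ) 1, |p (γ t)| < 1 / 4 := by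
  obtain ⟨L, hL, γ, h1, h2, h3, h4, h5⟩ := exists_rch hp hb hC
  have hm : MapsTo (fun t : ℝ => L / 2 * (t + 1)) (Icc (-1) 1) (Icc 0 L) := fun t ht =>
    ⟨by nlinarith [ht.1], by nlinarith [ht.2]⟩
  have hm' : ∀ t ∈ Ioo (-1 : ℝ) 1, L / 2 * (t + 1) ∈ Ioo 0 L := fun t ht =>
    ⟨by nlinarith [ht.1], by nlinarith [ht.2]⟩
  have e1 : γ (L / 2 * (-1 + 1)) = (-1, 0) := by simpa using h3
  have e2 : γ (L / 2 * (1 + 1)) = (1, 0) := by rw [← h4]; congr 1; ring
  refine ⟨fun t => γ (L / 2 * (t + 1)), h1.comp (pl_mul _ (pl_add (plOn_id _) (plOn_const _ _))) hm,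
    fun s hs t ht e => ?_, e1, e2, fun t ht => (h5 _ (hm' t ht)).1, fun t ht => ?_⟩
  · have := h2 (hm hs) (hm ht) e
    have h6 : L / 2 * (s + 1) = L / 2 * (t + 1) := this
    have := mul_left_cancel₀ (by positivity) h6
    linarith
  · rcases ht.1.eq_or_lt with rfl | c
    · simp only [e1]; rw [hb _ (by simp)]; norm_num
    rcases ht.2.eq_or_lt with rfl | c'
    · simp only [e2]; rw [hb _ (by simp)]; norm_num
    · exact (h5 _ (hm' t ⟨c, c'⟩)).2

end Crest.Agent.X212.Cor42
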