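import Crest.Agent.X212.Lad50.PL
import Crest.Agent.R096.Cb6_609

/-!
# X212 / T layer, CORE1, part 2: reparametrisation of the annulus along an arc (helper42)

`exists_rep`: a simple PL arc across the strip which is disjoint from its vertical integer
translates is the image of the horizontal segment under an equivariant locally PL injection of the
plane which is the identity outside the open strip (plane Schoenflies theorem).
-/

set_option autoImplicit false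

open Set Metric Topology

namespace Crest.Agent.X212.Cor42

open Crest.Agent.R096 Crest.Agent.R096.Ce_537 Crest.Agent.R096.Pl Crest.Agent.R096.Cb_609
open Crest.Agent.X212.Lad50

/-- a PL parametrised circle of the plane bounds a disc; the two sides -/
theorem exists_disc {b : ℝ × ℝ → ℝ × ℝ} (hb : PLOn b (sphere 0 1)) (hi : InjOn b (sphere 0 1)) :
    ∃ (D : Set (ℝ × ℝ)) (Φ : PLEquiv (closedBall (0 : ℝ × ℝ) 1) D), EqOn Φ.f b (sphere 0 1) ∧
      IsBall 2 D (b '' sphere 0 1) ∧ IsOpen (D \ b '' sphere 0 1) := by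
  obtain ⟨e, he, -⟩ := isBall_plane.exists_equiv isBall_real2
  have hm : MapsTo e.f (S1 ℝ) (sphere 0 1) := fun x hx => he ▸ mem_image_of_mem _ hx
  have h1 : StdC ((fun x => b (e.f x)) '' S1 ℝ) :=
    stdC_of_plOn (hb.comp (e.pf.mono isBall_plane.subset) hm) fun x hx y hy h =>
      e.injOn (isBall_plane.subset hx) (isBall_plane.subset hy) (hi (hm hx) (hm hy) h)
  rw [← image_image b e.f, he] at h1
  obtain ⟨H, hH, h2⟩ := h1
  have hD := isBall_of_stdC isBall_real hH h2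
  obtain ⟨Φ, hΦ, -⟩ := isBall_real2.extend hD (Cx_609.equivOfInjOn
    (Cx_609.isBall_iff.1 isBall_real2).finConv_bd isClosed_sphere hb hi)
  refine ⟨_, Φ, hΦ, hD, ?_⟩
  have : H '' {p : ℝ × ℝ | N1 p ≤ 1} \ b '' sphere 0 1 = H '' U1 ℝ := by
    rw [← h2, ← image_sdiff H.injective]
    congr 1
    ext p
    simp only [mem_sdiff, mem_ofPred_eq, S1, U1]
    exact ⟨fun h => h.1.lt_of_ne h.2, fun h => ⟨h.le, h.ne⟩⟩
  rw [this]
  exact H.isOpenMap _ (isOpen_lt N1_continuous continuous_const)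

lemma sides {D J C : Set (ℝ × ℝ)} (hD : IsClosed D) (hU : IsOpen (D \ J)) (hC : IsPreconnected C)
    (hd : Disjoint C J) : C ⊆ D \ J ∨ C ⊆ Dᶜ :=
  hC.subset_or_subset hU hD.isOpen_compl (disjoint_left.2 fun _ h h' => h' h.1) fun x hx => by
    by_cases h : x ∈ D
    · exact Or.inl ⟨h, disjoint_left.1 hd hx⟩
    · exact Or.inr h

lemma mem_sq {z : ℝ × ℝ} : z ∈ closedBall (0 : ℝ × ℝ) 1 ↔ |z.1| ≤ 1 ∧ |z.2| ≤ 1 := by
  rw [mem_closedBall_zero_iff, Prod.norm_def, max_le_iff]; rfl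

lemma mem_dsq {z : ℝ × ℝ} :
    z ∈ sphere (0 : ℝ × ℝ) 1 ↔ |z.1| ≤ 1 ∧ |z.2| ≤ 1 ∧ (|z.1| = 1 ∨ |z.2| = 1) := by
  rw [mem_sphere_zero_iff_norm, Prod.norm_def, Real.norm_eq_abs, Real.norm_eq_abs]
  constructor
  · intro h
    refine ⟨h ▸ le_max_left _ _, h ▸ le_max_right _ _, ?_⟩
    rcases max_choice |z.1| |z.2| with e | e <;> rw [e] at h
    exacts [Or.inl h, Or.inr h]
  · rintro ⟨h1, h2, h | h⟩
    · rw [max_eq_left (h ▸ h2), h]
    · rw [max_eq_right (h ▸ h1), h]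

/-- the data: an arc across the strip, disjoint from its translates -/
structure Crs (γ : ℝ → ℝ × ℝ) : Prop where
  pl : PLOn γ (Icc (-1) 1)
  inj : InjOn γ (Icc (-1) 1)
  l : γ (-1) = (-1, 0)
  r : γ 1 = (1, 0)
  ins : ∀ t ∈ Ioo (-1 : ℝ) 1, |(γ t).1| < 1
  tr : ∀ s ∈ Icc (-1 : ℝ) 1, ∀ t ∈ Icc (-1 : ℝ) 1, ∀ n : ℤ, γ s = γ t + (0, (n : ℝ)) → n = 0

/-- the boundary parametrisation -/
noncomputable def bd (γ : ℝ → ℝ × ℝ) (z : ℝ × ℝ) : ℝ × ℝ := γ z.1 + (0, (z.2 + 1) / 2)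

namespace Crs

variable {γ : ℝ → ℝ × ℝ} (h : Crs γ)
include h

lemma eq_of_abs {t : ℝ} (e : |t| = 1) : γ t = (t, 0) := by
  rcases (abs_eq zero_le_one).1 e with rfl | rfl
  exacts [h.r, h.l]

lemma lt_of {t : ℝ} (e : |t| < 1) : |(γ t).1| < 1 := h.ins t (abs_lt.1 e)

lemma le_of {t : ℝ} (e : |t| ≤ 1) : |(γ t).1| ≤ 1 := by
  rcases e.eq_or_lt with e | e
  · rw [h.eq_of_abs e]; exact e.le
  · exact (h.lt_of e).le

lemma abs_eq {t : ℝ} (ht : |t| ≤ 1) (e : |(γ t).1| = 1) : |t| = 1 :=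
  ht.eq_or_lt.resolve_right fun c => (h.lt_of c).ne e

lemma pl_bd : PLOn (bd γ) (sphere 0 1) :=
  pl_add (h.pl.comp (pl_fst (plOn_id _)) fun _ hz => abs_le.1 (mem_dsq.1 hz).1)
    (pl_prod (plOn_const _ _) ((pl_mul (1 / 2) (pl_add (pl_snd (plOn_id _))
      (plOn_const 1 _))).congr fun z _ => by ring))

/-- a point of the curve on a translate of the arc -/
lemma bd_eq {z : ℝ × ℝ} (hz : z ∈ sphere (0 : ℝ × ℝ) 1) {t : ℝ} (ht : |t| ≤ 1) {n : ℤ}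
    (e : bd γ z = γ t + (0, (n : ℝ))) : z.1 = t ∧ (z.2 + 1) / 2 = n := by
  obtain ⟨z1, z2, z3⟩ := mem_dsq.1 hz
  have e1 : (γ z.1).1 = (γ t).1 := by simpa [bd] using congrArg Prod.fst e
  rcases z3 with z3 | z3
  · have t1 : |t| = 1 := h.abs_eq ht (by rw [← e1, h.eq_of_abs z3]; exact z3)
    rw [bd, h.eq_of_abs z3, h.eq_of_abs t1] at e
    exact ⟨by simpa using congrArg Prod.fst e, by simpa using congrArg Prod.snd e⟩
  · obtain ⟨m, hm⟩ : ∃ m : ℤ, (z.2 + 1) / 2 = m := by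
      rcases (_root_.abs_eq zero_le_one).1 z3 with c | c
      · exact ⟨1, by rw [c]; norm_num⟩
      · exact ⟨0, by rw [c]; norm_num⟩
    rw [bd, hm] at e
    have e2 : γ z.1 = γ t + (0, ((n - m : ℤ) : ℝ)) := by
      rw [← add_left_inj ((0 : ℝ), (m : ℝ)), e, add_assoc]; simp
    have e3 := h.tr _ (abs_le.1 z1) _ (abs_le.1 ht) _ e2
    rw [e3] at e2
    exact ⟨h.inj (abs_le.1 z1) (abs_le.1 ht) (by simpa [Prod.mk_zero_zero] using e2), by
      rw [hm]; exact_mod_cast (by omega : m = n)⟩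

lemma inj_bd : InjOn (bd γ) (sphere 0 1) := by
  intro z hz z' hz' e
  obtain ⟨z1, z2, z3⟩ := mem_dsq.1 hz
  obtain ⟨w1, w2, w3⟩ := mem_dsq.1 hz'
  have key : ∀ z ∈ sphere (0 : ℝ × ℝ) 1, ∀ z' ∈ sphere (0 : ℝ × ℝ) 1, bd γ z = bd γ z' →
      |z'.2| = 1 → z = z' := by
    intro z hz z' hz' e c
    obtain ⟨m, hm⟩ : ∃ m : ℤ, (z'.2 + 1) / 2 = m := by
      rcases (_root_.abs_eq zero_le_one).1 c with c | c
      · exact ⟨1, by rw [c]; norm_num⟩
      · exact ⟨0, by rw [c]; norm_num⟩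
    obtain ⟨a, b⟩ := h.bd_eq hz (mem_dsq.1 hz').1 (n := m) (by rw [e, bd, hm])
    exact Prod.ext a (by linarith)
  rcases w3 with w3 | w3
  · rcases z3 with z3 | z3
    · rw [bd, bd, h.eq_of_abs z3, h.eq_of_abs w3] at e
      have a := congrArg Prod.fst e
      have b := congrArg Prod.snd e
      simp only [Prod.mk_add_mk, add_zero, zero_add] at a b
      exact Prod.ext a (by linarith)
    · exact (key z' hz' z hz e.symm z3).symm
  · exact key z hz z' hz' e w3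

/-- the curve lies on the sides or on two translates of the arc -/
lemma bd_cases {z : ℝ × ℝ} (hz : z ∈ sphere (0 : ℝ × ℝ) 1) :
    |(bd γ z).1| = 1 ∨ ∃ m : ℤ, bd γ z = γ z.1 + (0, (m : ℝ)) := by
  obtain ⟨z1, z2, z3 | z3⟩ := mem_dsq.1 hz
  · left; rw [bd, h.eq_of_abs z3]; simpa using z3
  · right
    rcases (_root_.abs_eq zero_le_one).1 z3 with c | c
    · exact ⟨1, by rw [bd, c]; norm_num⟩
    · exact ⟨0, by rw [bd, c]; norm_num⟩

lemma bd_le {z : ℝ × ℝ} (hz : z ∈ sphere (0 : ℝ × ℝ) 1) : |(bd γ z).1| ≤ 1 := by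
  simpa [bd] using h.le_of (mem_dsq.1 hz).1

section Tile

variable {D : Set (ℝ × ℝ)} (hD : IsBall 2 D (bd γ '' sphere 0 1))
  (hU : IsOpen (D \ bd γ '' sphere 0 1))
include hD hU

lemma strip_le {y : ℝ × ℝ} (hy : y ∈ D) : |y.1| ≤ 1 := by
  by_contra hc
  rw [not_le] at hc
  obtain ⟨R, hR⟩ := hD.isCompact.isBounded.exists_norm_le
  have hC : IsPreconnected ((fun t : ℝ => (y.1, t)) '' univ) :=
    isPreconnected_univ.image _ (by fun_prop)
  rcases sides hD.isClosed hU hC (disjoint_left.2 (by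
    rintro _ ⟨t, -, rfl⟩ ⟨z, hz, e⟩
    have := h.bd_le hz
    rw [e] at this
    exact absurd this (not_le.2 hc))) with c | c
  · have h1 := (norm_snd_le _).trans (hR _ (c ⟨|R| + 1, mem_univ _, rfl⟩).1)
    simp only [Real.norm_eq_abs] at h1
    linarith [le_abs_self R, le_abs_self (|R| + 1)]
  · exact c ⟨y.2, mem_univ _, rfl⟩ hy

lemma strip_lt {y : ℝ × ℝ} (hy : y ∈ D \ bd γ '' sphere 0 1) : |y.1| < 1 := by
  obtain ⟨r, hr, hb⟩ := Metric.isOpen_iff.1 hU y hy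
  have key : ∀ s : ℝ, |s| < r → |y.1 + s| ≤ 1 := fun s hs =>
    h.strip_le hD hU (y := (y.1 + s, y.2)) (hb (by
      rw [mem_ball, Prod.dist_eq]; simpa [Real.dist_eq, hr] using hs)).1
  have a := abs_le.1 (key (r / 2) (by rw [abs_of_pos (by linarith)]; linarith))
  have b := abs_le.1 (key (-(r / 2)) (by rw [abs_neg, abs_of_pos (by linarith)]; linarith))
  exact abs_lt.2 ⟨by linarith [b.1], by linarith [a.2]⟩

lemma corner {n : ℤ} (hn : ((1 : ℝ), (n : ℝ)) ∈ D) : n = 0 ∨ n = 1 := by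
  obtain ⟨z, hz, e⟩ : ((1 : ℝ), (n : ℝ)) ∈ bd γ '' sphere 0 1 := by
    by_contra hc
    simpa using h.strip_lt hD hU ⟨hn, hc⟩
  obtain ⟨-, b⟩ := h.bd_eq hz (t := 1) (n := n) (by simp) (by rw [e, h.r]; simp)
  have c := abs_le.1 (mem_dsq.1 hz).2.1
  have c0 : (0 : ℝ) ≤ n := by linarith [c.1]
  have c1 : (n : ℝ) ≤ 1 := by linarith [c.2]
  have c0' : 0 ≤ n := by exact_mod_cast c0
  have c1' : n ≤ 1 := by exact_mod_cast c1
  omega

lemma arc_not_mem {t : ℝ} (ht : |t| ≤ 1) (n : ℤ) :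
    γ t + (0, (n : ℝ)) ∉ D \ bd γ '' sphere 0 1 := by
  intro hm
  by_cases hn : n = 0 ∨ n = 1
  · refine hm.2 ⟨(t, 2 * n - 1), mem_dsq.2 ?_, by simp [bd]⟩
    rcases hn with rfl | rfl <;> norm_num [ht]
  have hC : IsPreconnected ((fun s : ℝ => γ s + (0, (n : ℝ))) '' Icc (-1) 1) :=
    isPreconnected_Icc.image _ (h.pl.1.add continuousOn_const)
  rcases sides hD.isClosed hU hC (disjoint_left.2 (by
    rintro _ ⟨s, hs, rfl⟩ ⟨z, hz, e⟩
    obtain ⟨-, b⟩ := h.bd_eq hz (abs_le.2 hs) e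
    have c := abs_le.1 (mem_dsq.1 hz).2.1
    have c0 : (0 : ℝ) ≤ n := by linarith [c.1]
    have c1 : (n : ℝ) ≤ 1 := by linarith [c.2]
    have c0' : 0 ≤ n := by exact_mod_cast c0
    have c1' : n ≤ 1 := by exact_mod_cast c1
    omega)) with c | c
  · refine hn (h.corner hD hU ?_)
    have := (c ⟨1, by norm_num, rfl⟩).1
    simpa [h.r] using this
  · exact c ⟨t, abs_le.1 ht, rfl⟩ hm.1

lemma shift_eq {y : ℝ × ℝ} (hy : y ∈ D \ bd γ '' sphere 0 1) {n : ℤ}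
    (hy' : y + (0, (n : ℝ)) ∈ D \ bd γ '' sphere 0 1) : n = 0 := by
  have hc : Continuous fun w : ℝ × ℝ => w + (0, (n : ℝ)) := by fun_prop
  have hC : IsPreconnected ((fun w : ℝ × ℝ => w + (0, (n : ℝ))) '' (D \ bd γ '' sphere 0 1)) :=
    hD.isPreconnected_diff.image _ hc.continuousOn
  rcases sides hD.isClosed hU hC (disjoint_left.2 (by
    rintro _ ⟨w, hw, rfl⟩ ⟨z, hz, e⟩
    beta_reduce at e
    rcases h.bd_cases hz with c | ⟨m, c⟩
    · rw [e] at c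
      exact (h.strip_lt hD hU hw).ne (by simpa using c)
    · refine h.arc_not_mem hD hU (mem_dsq.1 hz).1 (m - n) ?_
      have : w = γ z.1 + (0, ((m - n : ℤ) : ℝ)) := by
        rw [← add_left_inj ((0 : ℝ), (n : ℝ)), ← e, c, add_assoc]; simp
      rwa [← this])) with c | c
  · have hcl : ∀ w ∈ D, w + (0, (n : ℝ)) ∈ D := fun w hw => by
      rw [← hD.closure_diff] at hw
      exact closure_minimal (c.trans sdiff_subset) hD.isClosed
        (image_closure_subset_closure_image hc ⟨w, hw, rfl⟩)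
    have k0 : ((1 : ℝ), (0 : ℝ)) ∈ D := hD.subset ⟨(1, -1), mem_dsq.2 (by norm_num), by simp [bd, h.r]⟩
    have k1 : ((1 : ℝ), (1 : ℝ)) ∈ D := hD.subset ⟨(1, 1), mem_dsq.2 (by norm_num), by simp [bd, h.r]⟩
    have a := h.corner hD hU (n := n) (by simpa using hcl _ k0)
    have b := h.corner hD hU (n := 1 + n) (by simpa using hcl _ k1)
    omega
  · exact absurd hy'.1 (c ⟨y, hy, rfl⟩)

end Tile

/-- **reparametrisation** -/
theorem exists_rep : ∃ φ : ℝ × ℝ → ℝ × ℝ, LocPL φ univ ∧ Function.Injective φ ∧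
    (∀ y (n : ℤ), φ (y + (0, (n : ℝ))) = φ y + (0, (n : ℝ))) ∧ (∀ y, 1 ≤ |y.1| → φ y = y) ∧
    (∀ y, |y.1| < 1 → |(φ y).1| < 1) ∧ ∀ t, |t| ≤ 1 → φ (t, 0) = γ t := by
  classical
  obtain ⟨D, Φ, hΦ, hD, hU⟩ := exists_disc h.pl_bd h.inj_bd
  let φ : ℝ × ℝ → ℝ × ℝ := fun y =>
    if |y.1| ≤ 1 then Φ.f (y.1, 2 * (y.2 - ⌊y.2⌋) - 1) + (0, (⌊y.2⌋ : ℝ)) else y
  have hbot : ∀ t : ℝ, |t| ≤ 1 → Φ.f (t, -1) = γ t := fun t ht => by
    rw [hΦ (mem_dsq.2 (by simp [ht]))]; simp [bd]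
  have htop : ∀ t : ℝ, |t| ≤ 1 → Φ.f (t, 1) = γ t + (0, 1) := fun t ht => by
    rw [hΦ (mem_dsq.2 (by simp [ht]))]; simp [bd]
  have hsq : ∀ y : ℝ × ℝ, |2 * (y.2 - ⌊y.2⌋) - 1| ≤ 1 := fun y =>
    abs_le.2 ⟨by linarith [Int.floor_le y.2], by linarith [Int.lt_floor_add_one y.2]⟩
  have hsq' : ∀ y : ℝ × ℝ, |y.1| ≤ 1 →
      (y.1, 2 * (y.2 - ⌊y.2⌋) - 1) ∈ closedBall (0 : ℝ × ℝ) 1 := fun y hy => mem_sq.2 ⟨hy, hsq y⟩
  have f1 : ∀ (n : ℤ) (y : ℝ × ℝ), |y.1| ≤ 1 → (n : ℝ) ≤ y.2 → y.2 ≤ n + 1 →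
      φ y = Φ.f (y.1, 2 * (y.2 - n) - 1) + (0, (n : ℝ)) := fun n y h1 h2 h3 => by
    simp only [φ, if_pos h1]
    rcases h3.lt_or_eq with c | c
    · rw [Int.floor_eq_iff.2 ⟨h2, c⟩]
    · have : ⌊y.2⌋ = n + 1 := by rw [c]; exact_mod_cast Int.floor_intCast (R := ℝ) (n + 1)
      rw [this, c]
      push_cast
      rw [show 2 * ((n : ℝ) + 1 - (n + 1)) - 1 = -1 by ring,
        show 2 * ((n : ℝ) + 1 - n) - 1 = 1 by ring, hbot _ h1, htop _ h1, add_assoc]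
      simp [add_comm]
  have f2 : ∀ y : ℝ × ℝ, 1 ≤ |y.1| → φ y = y := fun y hy => by
    rcases hy.eq_or_lt with c | c
    · simp only [φ, if_pos c.ge]
      rw [hΦ ((mem_dsq (z := (y.1, 2 * (y.2 - ⌊y.2⌋) - 1))).2 ⟨c.ge, hsq y, Or.inl c.symm⟩), bd,
        h.eq_of_abs c.symm]
      ext <;> simp
    · exact if_neg (not_le.2 c)
  -- the two kinds of points of the open strip
  have f3 : ∀ y : ℝ × ℝ, |y.1| < 1 → (y.2 = ⌊y.2⌋ ∧ φ y = γ y.1 + (0, (⌊y.2⌋ : ℝ))) ∨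
      Φ.f (y.1, 2 * (y.2 - ⌊y.2⌋) - 1) ∈ D \ bd γ '' sphere 0 1 := fun y hy => by
    rcases (Int.floor_le y.2).eq_or_lt with c | c
    · refine Or.inl ⟨c.symm, ?_⟩
      simp only [φ, if_pos hy.le]
      rw [show 2 * (y.2 - ⌊y.2⌋) - 1 = -1 by linarith, hbot _ hy.le]
    · refine Or.inr ⟨Φ.mf (hsq' y hy.le), ?_⟩
      rintro ⟨z, hz, e⟩
      rw [← hΦ hz] at e
      have := Φ.injOn (sphere_subset_closedBall hz) (hsq' y hy.le) e
      rw [this] at hz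
      rcases (mem_dsq.1 hz).2.2 with k | k
      · exact hy.ne k
      · exact (abs_lt.2 ⟨by linarith, by linarith [Int.lt_floor_add_one y.2]⟩ :
          |2 * (y.2 - ⌊y.2⌋) - 1| < 1).ne k
  have f4 : ∀ y : ℝ × ℝ, |y.1| < 1 → |(φ y).1| < 1 := fun y hy => by
    rcases f3 y hy with ⟨-, c⟩ | c
    · rw [c]; simpa using h.lt_of hy
    · simp only [φ, if_pos hy.le]
      simpa using h.strip_lt hD hU c
  refine ⟨φ, ?_, ?_, fun y n => ?_, f2, f4, fun t ht => ?_⟩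
  · have hQ : ∀ n : ℤ, PLOn φ {y | |y.1| ≤ 1 ∧ (n : ℝ) ≤ y.2 ∧ y.2 ≤ n + 1} := fun n =>
      (pl_add (Φ.pf.comp (pl_prod (pl_fst (plOn_id _)) (pl_sub (pl_mul 2 (pl_sub
        (pl_snd (plOn_id _)) (plOn_const (n : ℝ) _))) (plOn_const 1 _))) fun y hy =>
          mem_sq.2 ⟨hy.1, abs_le.2 ⟨by linarith [hy.2.1], by linarith [hy.2.2]⟩⟩)
        (plOn_const _ _)).congr fun y hy => f1 n y hy.1 hy.2.1 hy.2.2
    have hQc : ∀ n : ℤ, IsClosed {y : ℝ × ℝ | |y.1| ≤ 1 ∧ (n : ℝ) ≤ y.2 ∧ y.2 ≤ n + 1} := fun n =>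
      IsClosed.inter (s₁ := {y : ℝ × ℝ | |y.1| ≤ 1}) (isClosed_le (by fun_prop) continuous_const)
        (IsClosed.inter (s₁ := {y : ℝ × ℝ | (n : ℝ) ≤ y.2}) (s₂ := {y : ℝ × ℝ | y.2 ≤ n + 1})
          (isClosed_le continuous_const continuous_snd)
          (isClosed_le continuous_snd continuous_const))
    have hO : PLOn φ {y | 1 ≤ |y.1|} := (plOn_id _).congr fun y hy => f2 y hy
    have hOc : IsClosed {y : ℝ × ℝ | 1 ≤ |y.1|} := isClosed_le continuous_const (by fun_prop)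
    refine locPL_of_nhds fun y _ => ⟨_, ?_, ((hQ (⌊y.2⌋ - 1)).union (hQ ⌊y.2⌋) (hQc _)
      (hQc _)).union hO ((hQc _).union (hQc _)) hOc⟩
    have hn : Ioo ((⌊y.2⌋ : ℝ) - 1) (⌊y.2⌋ + 1) ∈ 𝓝 y.2 :=
      Ioo_mem_nhds (by linarith [Int.floor_le y.2]) (Int.lt_floor_add_one y.2)
    filter_upwards [continuous_snd.continuousAt hn] with z hz
    rcases le_total 1 |z.1| with c | c
    · exact Or.inr c
    · rcases le_total z.2 ⌊y.2⌋ with c' | c'
      · exact Or.inl (Or.inl ⟨c, by push_cast; exact hz.1.le, by push_cast; linarith⟩)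
      · exact Or.inl (Or.inr ⟨c, c', hz.2.le⟩)
  · intro y y' e
    rcases le_or_gt 1 |y.1| with c | c <;> rcases le_or_gt 1 |y'.1| with c' | c'
    · rwa [f2 y c, f2 y' c'] at e
    · have := f4 y' c'
      rw [← e, f2 y c] at this
      exact absurd this (not_lt.2 c)
    · have := f4 y c
      rw [e, f2 y' c'] at this
      exact absurd this (not_lt.2 c')
    have e0 := e
    simp only [φ, if_pos c.le, if_pos c'.le] at e0
    have e1 : Φ.f (y.1, 2 * (y.2 - ⌊y.2⌋) - 1) = φ y' + (0, ((-⌊y.2⌋ : ℤ) : ℝ)) := by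
      rw [← e]; simp only [φ, if_pos c.le]; rw [add_assoc]; simp
    have e2 : Φ.f (y'.1, 2 * (y'.2 - ⌊y'.2⌋) - 1) = φ y + (0, ((-⌊y'.2⌋ : ℤ) : ℝ)) := by
      rw [e]; simp only [φ, if_pos c'.le]; rw [add_assoc]; simp
    have hn : ⌊y.2⌋ = ⌊y'.2⌋ := by
      rcases f3 y c with ⟨-, a⟩ | a <;> rcases f3 y' c' with ⟨-, b⟩ | b
      · have := h.tr _ (abs_le.1 c.le) _ (abs_le.1 c'.le) (⌊y'.2⌋ - ⌊y.2⌋) (by
          rw [← add_left_inj ((0 : ℝ), (⌊y.2⌋ : ℝ)), ← a, e, b, add_assoc]; simp)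
        omega
      · refine absurd b ?_
        rw [e2, a, add_assoc]
        simpa using h.arc_not_mem hD hU c.le (⌊y.2⌋ + -⌊y'.2⌋)
      · refine absurd a ?_
        rw [e1, b, add_assoc]
        simpa using h.arc_not_mem hD hU c'.le (⌊y'.2⌋ + -⌊y.2⌋)
      · have := h.shift_eq hD hU a (n := ⌊y.2⌋ - ⌊y'.2⌋) (by
          convert b using 1
          rw [← add_left_inj ((0 : ℝ), (⌊y'.2⌋ : ℝ)), ← e0, add_assoc]; simp)
        omega
    have e4 : Φ.f (y.1, 2 * (y.2 - ⌊y.2⌋) - 1) = Φ.f (y'.1, 2 * (y'.2 - ⌊y'.2⌋) - 1) := by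
      rw [← add_left_inj ((0 : ℝ), (⌊y.2⌋ : ℝ)), e0, hn]
    have e3 := Φ.injOn (hsq' y c.le) (hsq' y' c'.le) e4
    have a := congrArg Prod.fst e3
    have b := congrArg Prod.snd e3
    simp only [hn] at a b
    exact Prod.ext a (by linarith)
  · by_cases c : |y.1| ≤ 1
    · have c' : |(y + (0, (n : ℝ))).1| ≤ 1 := by simpa using c
      simp only [φ, if_pos c, if_pos c']
      simp only [Prod.fst_add, add_zero, Prod.snd_add, Int.floor_add_intCast, Int.cast_add]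
      rw [add_assoc, show y.2 + n - (⌊y.2⌋ + n) = y.2 - ⌊y.2⌋ by ring]; simp
    · have c' : ¬|(y + (0, (n : ℝ))).1| ≤ 1 := by simpa using c
      simp only [φ, if_neg c, if_neg c']
  · rw [f1 0 (t, 0) ht (by simp) (by simp)]
    simpa [Prod.mk_zero_zero] using hbot t ht

end Crs

end Crest.Agent.X212.Cor42
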