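import Crest.Agent.X212.Cor42.Arc
import Crest.Agent.X212.Cor42.Rep
import Crest.Agent.X212.Prd34.Leaf

/-!
# X212 / T layer, CORE1: the special annulus through the core (helper42)

Any rung contains an arc across the handle inside the box; reparametrise along it.
-/

set_option autoImplicit false

open Set Metric Topology

namespace Crest.Agent.X212.Cor42

open Crest.Agent.R096 Crest.Agent.R096.Ce_537 Crest.Agent.X212.Lad50 Crest.Agent.X212.Prd34

lemma lv_out {c : ℝ} {y : P} : lv c y ∈ out {0} ↔ 1 ≤ |y 0| := by simp [out, lv]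

lemma lv_lat (n : ℤ) : lv 0 ![0, (n : ℝ)] ∈ lat {1} := by
  intro i
  fin_cases i <;> simp [lv]

lemma of_lat {m : P} (h : lv 0 m ∈ lat {1}) : m 0 = 0 ∧ ∃ n : ℤ, m 1 = n :=
  ⟨by simpa [lv] using (h 0).2 (by simp), by simpa [lv] using (h 1).1 (by simp)⟩

/-- a rung can be reparametrised so that the segment over the core stays in the box -/
theorem rung_core {H : V → V} {c δ : ℝ} {u : P → V} (hu : Rung {0} {1} H c δ u) :
    ∃ u', Rung {0} {1} H c δ u' ∧ range u' ⊆ range u ∧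
      ∀ t : ℝ, |t| ≤ 1 → |u' ![t, 0] 1| < 1 / 4 := by
  let j : ℝ × ℝ → P := fun y => ![y.1, y.2]
  let k : P → ℝ × ℝ := fun y => (y 0, y 1)
  have jk : ∀ y, j (k y) = y := fun y => by funext i; fin_cases i <;> rfl
  have kj : ∀ y, k (j y) = y := fun y => rfl
  have pj : PLOn j univ := pl_vec2 (pl_fst (plOn_id _)) (pl_snd (plOn_id _))
  have pk : PLOn k univ := pl_prod (pl_coord 0 _) (pl_coord 1 _)
  have cj : Continuous j := continuousOn_univ.1 pj.1
  have jadd : ∀ y (n : ℤ), j (y + (0, (n : ℝ))) = j y + ![0, (n : ℝ)] := fun y n => by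
    funext i; fin_cases i <;> simp [j]
  let p : ℝ × ℝ → ℝ := fun y => u (j y) 1
  have hp : Continuous p := (continuous_apply 1).comp (hu.cont.comp cj)
  have hb : ∀ y : ℝ × ℝ, |y.1| = 1 → p y = y.2 := fun y hy => by
    simp only [p]; rw [hu.bd _ (lv_out.2 hy.ge)]; rfl
  have hs : ∀ y (n : ℤ), p (y + (0, (n : ℝ))) = p y + n := fun y n => by
    simp only [p]; rw [jadd, hu.eqv _ _ (lv_lat n)]; simp [lv]
  obtain ⟨C, hC⟩ : ∃ C, ∀ y : ℝ × ℝ, |y.1| ≤ 1 → |p y - y.2| ≤ C := by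
    obtain ⟨C, hC⟩ := (isCompact_Icc.prod isCompact_Icc : IsCompact
      (Icc (-1 : ℝ) 1 ×ˢ Icc (0 : ℝ) 1)).exists_bound_of_continuousOn
      (f := fun y : ℝ × ℝ => p y - y.2) (by fun_prop)
    refine ⟨C, fun y hy => ?_⟩
    have h1 := hC (y.1, y.2 - ⌊y.2⌋) ⟨abs_le.1 hy, by linarith [Int.floor_le y.2],
      by linarith [Int.lt_floor_add_one y.2]⟩
    have h2 := hs (y.1, y.2 - ⌊y.2⌋) ⌊y.2⌋
    simp only [Prod.mk_add_mk, add_zero, sub_add_cancel, Prod.mk.eta] at h2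
    rw [Real.norm_eq_abs] at h1
    convert h1 using 2
    rw [h2]; ring
  obtain ⟨γ, g1, g2, g3, g4, g5, g6⟩ := exists_arc hp hb hC
  have hγ : Crs γ := ⟨g1, g2, g3, g4, g5, fun s hs' t ht n e => by
    have a := abs_lt.1 (g6 s hs')
    have b := abs_lt.1 (g6 t ht)
    rw [e, hs] at a
    have c1 : (-1 : ℝ) < n := by linarith [a.1, b.2]
    have c2 : (n : ℝ) < 1 := by linarith [a.2, b.1]
    have c1' : -1 < n := by exact_mod_cast c1
    have c2' : n < 1 := by exact_mod_cast c2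
    omega⟩
  obtain ⟨φ, f1, f2, f3, f4, f5, f6⟩ := hγ.exists_rep
  have pφ : LocPL (fun y => j (φ (k y))) univ :=
    locPL_comp (locPL_of_plOn pj univ) (locPL_comp f1 (locPL_of_plOn pk univ) (mapsTo_univ _ _))
      (mapsTo_univ _ _)
  refine ⟨fun y => u (j (φ (k y))), ⟨hu.cont.comp (continuous_iff_continuousAt.2 fun y =>
    locPL_continuousAt pφ (mem_univ y)), fun y y' e => ?_, fun y m hm => ?_, fun y hy => ?_,
    fun y hy => ?_, fun y => hu.ht _, 
    locPL_comp (g := fun y => H (u y)) hu.pl pφ (mapsTo_univ _ _)⟩, ?_, fun t ht => ?_⟩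
  · have h1 := congrArg k (hu.inj e)
    rw [kj, kj] at h1
    rw [← jk y, f2 h1, jk]
  · obtain ⟨m0, n, m1⟩ := of_lat hm
    have h1 : k (y + m) = k y + (0, (n : ℝ)) := by simp [k, m0, m1]
    have h2 : m = ![0, (n : ℝ)] := by funext i; fin_cases i <;> simp [m0, m1]
    rw [h1, f3, jadd, hu.eqv _ _ (lv_lat n), h2]
  · rw [f4 _ (lv_out.1 hy), jk, hu.bd _ hy]
  · exact hu.ins _ fun h => (f5 (k y) (not_le.1 fun h' => hy (lv_out.2 h'))).not_ge (lv_out.1 h)
  · rintro _ ⟨y, rfl⟩; exact ⟨_, rfl⟩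
  · have h1 : k ![t, 0] = (t, 0) := rfl
    simp only [h1, f6 t ht]
    exact g6 t (abs_le.1 ht)

/-- **(CORE1)** -/
theorem core1 (h1 : Rung1Stmt) : Core1Stmt := by
  intro pol ρ hpol h hh hpl
  obtain ⟨u, hu⟩ := h1 pol ρ hpol h hh hpl 0 (1 / 4) (by norm_num)
  obtain ⟨u', hu', -, hc⟩ := rung_core hu
  exact ⟨u', ⟨hu'.cont, hu'.inj, hu'.eqv, hu'.bd, hu'.ins,
    fun y => (hu'.ht y).trans (by norm_num), hu'.pl⟩,
    fun t ht => ⟨hc t ht, by simpa using hu'.ht ![t, 0]⟩⟩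

end Crest.Agent.X212.Cor42
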